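import Vale.Agent.P167.H446.G.Line
import Vale.Agent.P167.H918.Flt

/-!
# [MK-ASM] (3): the images of `± X + i y` near the flat target, for the sequence
-/

set_option autoImplicit false

open Filter Topology Set Metric

namespace Vale.Agent.P167.H640.MK

open Vale.Agent.P153.R2
open Vale.Agent.P153.R2.DET (Uni HC)
open Vale.Agent.P153.R2.R1 (IsU DC FC isUniformizer_iff)
open Vale.Agent.P153.R2.L1 (HH)
open Vale.Agent.P167.SLE (bq)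
open Vale.Agent.P167.E6 (pt)
open Vale.Agent.P167.H411 (Set6)
open Vale.Agent.P167.SG (Bf)
open Vale.Agent.P167.H446.G (psr rt rt_ne norm_rt dist_rt line_all halfN)

/-- The target in the frame with origin `v₀` is the real point `xb`. -/
def Frm (δ : ℝ) (b : ℤ × ℤ) (v₀ : ℤ × ℤ) (xb : ℝ) : Prop :=
  rt * ((δ : ℂ) * pt b) + -((H446.G.dl δ : ℂ) * pt v₀) = (xb : ℂ)

theorem psr_sub {δ : ℝ} {b v₀ : ℤ × ℤ} {xb : ℝ} (h : Frm δ b v₀ xb) (ψ : ℂ → ℂ) (z : ℂ) :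
    psr δ v₀ ψ z - (xb : ℂ) = rt * (ψ z - (δ : ℂ) * pt b) := by
  rw [← h, psr]; ring

theorem psr_Bf {δ : ℝ} {b v₀ : ℤ × ℤ} {xb : ℝ} (h : Frm δ b v₀ xb) {ψ : ℂ → ℂ} {z : ℂ} {r : ℝ}
    (hd : dist (ψ z) ((δ : ℂ) * pt b) < r) : psr δ v₀ ψ z ∈ Bf xb r := by
  have h1 : ‖psr δ v₀ ψ z - (xb : ℂ)‖ < r := by
    rw [psr_sub h, norm_mul, norm_rt, one_mul, ← dist_eq_norm]; exact hd
  constructor
  · have := Complex.abs_re_le_norm (psr δ v₀ ψ z - (xb : ℂ))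
    rw [Complex.sub_re, Complex.ofReal_re] at this
    linarith
  · have := Complex.abs_im_le_norm (psr δ v₀ ψ z - (xb : ℂ))
    rw [Complex.sub_im, Complex.ofReal_im, sub_zero] at this
    linarith

variable {Φ : (ℝ × ℝ) ≃ₜ (ℝ × ℝ)} {ψ : ℂ → ℂ} {δ : ℕ → ℝ} {N k : ℕ → ℕ}
  {p : ∀ n, ZMod (N n) → ℤ × ℤ} {S : ℕ → Finset (ℤ × ℤ)} {ψn : ℕ → ℂ → ℂ}

/-- **The images of `σ X + i y`.** -/
theorem side_seq (H : Set6 Φ ψ δ N k p S ψn) (hK : QE.Stair 3 Φ δ N k p S) :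
    ∃ X₀ : ℝ, ∀ X : ℝ, X₀ ≤ X → ∃ d : ℝ, 0 < d ∧ ∀ η : ℝ, 0 < η → ∃ y : ℝ, 0 < y ∧ y ≤ 1 ∧
      ∀ᶠ n in atTop, ∀ σ : ℝ, |σ| = 1 → ∀ (v₀ : ℤ × ℤ) (xb : ℝ),
        Frm (δ n) (p n (k n)) v₀ xb →
          |(psr (δ n) v₀ (ψn n) ⟨σ * X, y⟩).im| < η ∧
            σ * ((psr (δ n) v₀ (ψn n) ⟨σ * X, y⟩).re - xb) ≤ -d := by
  obtain ⟨ρ, hρ, hF⟩ := halfN H.appr hK
  obtain ⟨X₀, hX₀, hp, hn, -, -⟩ := line_all H hρ hF
  have hU' : Uni ψ (bq Φ) := SLE.uni_of_uniformizer R1.i_uinj H.unif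
  have hU : IsU ψ (DC Φ) (FC Φ 0) (FC Φ Real.pi) := (isUniformizer_iff Φ ψ).1 H.unif
  refine ⟨X₀, fun X hX => ?_⟩
  have hne : ∀ x : ℝ, 0 < dist (ψ x) (bq Φ) := fun x =>
    dist_pos.2 ((hU.injOn (R1.good_DC _).nocut).2 x (by simp))
  set d : ℝ := min (dist (ψ (X : ℝ)) (bq Φ)) (dist (ψ ((-X : ℝ) : ℂ)) (bq Φ)) / 2 with hd
  have hd0 : 0 < d := by
    have := lt_min (hne X) (hne (-X))
    linarith
  have hd1 : 2 * d ≤ dist (ψ (X : ℝ)) (bq Φ) := by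
    have := min_le_left (dist (ψ (X : ℝ)) (bq Φ)) (dist (ψ ((-X : ℝ) : ℂ)) (bq Φ))
    linarith
  have hd2 : 2 * d ≤ dist (ψ ((-X : ℝ) : ℂ)) (bq Φ) := by
    have := min_le_right (dist (ψ (X : ℝ)) (bq Φ)) (dist (ψ ((-X : ℝ) : ℂ)) (bq Φ))
    linarith
  refine ⟨d, hd0, fun η hη => ?_⟩
  set η' : ℝ := min η d with hη'
  have hη0 : 0 < η' := lt_min hη hd0
  have hη1 : η' ≤ η := min_le_left _ _
  have hη2 : η' ≤ d := min_le_right _ _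
  -- continuity
  have hcont : ∀ x : ℝ, ∃ y₀ : ℝ, 0 < y₀ ∧ ∀ y : ℝ, 0 < y → y ≤ y₀ →
      dist (ψ ⟨x, y⟩) (ψ (x : ℝ)) < η' / 4 := by
    intro x
    have h1 : ContinuousWithinAt ψ HC (x : ℂ) := hU.cont _ (H327.real_HC x)
    obtain ⟨r, hr, h2⟩ := Metric.continuousWithinAt_iff.1 h1 (η' / 4) (by linarith)
    refine ⟨r / 2, by linarith, fun y hy hyr => h2 ?_ ?_⟩
    · exact le_of_lt (α := ℝ) hy
    · rw [dist_eq_norm]
      have e : (⟨x, y⟩ : ℂ) - (x : ℂ) = (y : ℂ) * Complex.I := by apply Complex.ext <;> simp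
      rw [e, norm_mul, Complex.norm_I, mul_one, Complex.norm_real, Real.norm_of_nonneg hy.le]
      linarith
  obtain ⟨y₁, hy₁, hc1⟩ := hcont X
  obtain ⟨y₂, hy₂, hc2⟩ := hcont (-X)
  set y : ℝ := min 1 (min y₁ y₂) with hy
  have hy0 : 0 < y := lt_min one_pos (lt_min hy₁ hy₂)
  have hyy1 : y ≤ y₁ := (min_le_right _ _).trans (min_le_left _ _)
  have hyy2 : y ≤ y₂ := (min_le_right _ _).trans (min_le_right _ _)
  refine ⟨y, hy0, min_le_left _ _, ?_⟩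
  filter_upwards [H.conv (η' / 4) (by linarith), H918.bl_near H.appr (show 0 < η' / 4 by linarith)]
    with n h1 h2 σ hσ v₀ xb hb
  have hbl : H918.bl δ N k p n = (δ n : ℂ) * pt (p n (k n)) := rfl
  rw [hbl] at h2
  have key : ∀ x : ℝ, dist (ψ ⟨x, y⟩) (ψ (x : ℝ)) < η' / 4 →
      ‖(psr (δ n) v₀ (ψn n) ⟨x, y⟩ - xb) - (rt * ψ (x : ℝ) - rt * bq Φ)‖ < η' := by
    intro x hx
    rw [psr_sub hb]
    have e : rt * (ψn n ⟨x, y⟩ - (δ n : ℂ) * pt (p n (k n))) - (rt * ψ (x : ℝ) - rt * bq Φ) =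
        rt * ((ψn n ⟨x, y⟩ - ψ ⟨x, y⟩) + (ψ ⟨x, y⟩ - ψ (x : ℝ)) +
          -((δ n : ℂ) * pt (p n (k n)) - bq Φ)) := by ring
    rw [e, norm_mul, norm_rt, one_mul]
    refine (norm_add₃_le).trans_lt ?_
    rw [norm_neg, ← dist_eq_norm, ← dist_eq_norm, ← dist_eq_norm]
    have := h1 ⟨x, y⟩ hy0.le
    linarith
  have fin : ∀ x : ℝ, dist (ψ ⟨x, y⟩) (ψ (x : ℝ)) < η' / 4 →
      (rt * ψ (x : ℝ)).im = (rt * bq Φ).im → |(psr (δ n) v₀ (ψn n) ⟨x, y⟩).im| < η ∧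
      |((psr (δ n) v₀ (ψn n) ⟨x, y⟩).re - xb) - ((rt * ψ (x : ℝ)).re - (rt * bq Φ).re)| < η' := by
    intro x hx him
    have h3 := key x hx
    constructor
    · have h4 := (Complex.abs_im_le_norm _).trans_lt h3
      rw [Complex.sub_im, Complex.sub_im, Complex.sub_im, him, sub_self, sub_zero,
        Complex.ofReal_im, sub_zero] at h4
      linarith
    · have h4 := (Complex.abs_re_le_norm _).trans_lt h3
      rwa [Complex.sub_re, Complex.sub_re, Complex.sub_re, Complex.ofReal_re] at h4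
  have hσ' : σ = 1 ∨ σ = -1 := by
    rcases abs_cases σ with ⟨h1, -⟩ | ⟨h1, -⟩ <;> [left; right] <;> linarith
  rcases hσ' with rfl | rfl
  · obtain ⟨g1, g2⟩ := hp X hX
    have h3 := fin X (hc1 y hy0 hyy1) g1
    rw [one_mul]
    refine ⟨h3.1, ?_⟩
    rw [one_mul]
    have h4 := (abs_lt.1 h3.2).2
    rw [g2] at h4
    linarith
  · obtain ⟨g1, g2⟩ := hn (-X) (by linarith)
    have h3 := fin (-X) (hc2 y hy0 hyy2) g1
    rw [neg_one_mul]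
    refine ⟨h3.1, ?_⟩
    rw [neg_one_mul]
    have h4 := (abs_lt.1 h3.2).1
    rw [g2] at h4
    linarith

end Vale.Agent.P167.H640.MK
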