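import Vale.Agent.P167.H640.MK.Hist
import Vale.Agent.P167.H640.MK.Seq
import Vale.Agent.P167.H756.S13

/-!
# [MK-ASM] (4): the data of the mark, with the order of the constants
-/

set_option autoImplicit false

open Filter Topology Set Metric

namespace Vale.Agent.P167.H640.MK

open Vale.Agent.P153.R2
open Vale.Agent.P153.R2.R1 (Conf dinv)
open Vale.Agent.P153.R2.L1 (HH)
open Vale.Agent.P164 (loewnerDomain Zf)
open Vale.Agent.P167.E6 (pt)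
open Vale.Agent.P167.H411 (Set6)
open Vale.Agent.P167.SG
open Vale.Agent.P167.H446.G (psr rt)
open Vale.Agent.P167.H756 (Cls FD FD_mb FD_img HConf Drv cls_FD)
open Vale.Agent.P167.H450.Out (Pm Hc Mk)

variable {Φ : (ℝ × ℝ) ≃ₜ (ℝ × ℝ)} {ψ : ℂ → ℂ} {δ : ℕ → ℝ} {N k : ℕ → ℕ}
  {p : ∀ n, ZMod (N n) → ℤ × ℤ} {S : ℕ → Finset (ℤ × ℤ)} {ψn : ℕ → ℂ → ℂ}

/-- Positions near `1` belong to far points. -/
theorem exists_t {X6 : ℝ} : ∃ t₁ : ℝ, 1 / 2 ≤ t₁ ∧ t₁ < 1 ∧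
    ((2 * X6) ^ 2 - 1) / ((2 * X6) ^ 2 + 1) < t₁ := by
  set A : ℝ := ((2 * X6) ^ 2 - 1) / ((2 * X6) ^ 2 + 1) with hA
  have hA1 : A < 1 := by
    rw [hA, div_lt_one (by positivity)]
    linarith
  have h1 : max A 0 < 1 := max_lt hA1 one_pos
  have h2 := le_max_left A 0
  have h3 := le_max_right A 0
  exact ⟨(1 + max A 0) / 2, by linarith, by linarith, by linarith⟩

/-- **[MK-ASM]** The data of the mark. -/
theorem mk_all (H : Set6 Φ ψ δ N k p S ψn) (hK : QE.Stair 3 Φ δ N k p S)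
    {T R Rd cd Y X1 rf h₁ s₁ : ℝ} (hRd : 0 < Rd) (hcd : 0 < cd) (hY0 : 0 < Y) (hY : 8 * R ≤ Y)
    (hY2 : 64 * T ≤ Y ^ 2) (hX1 : 2 ≤ X1) (h4R : 4 * R ≤ X1) (h16 : 16 * T ≤ X1 ^ 2)
    (hh : 0 < h₁) (hhrf : 4 * h₁ ≤ rf) (hs₁ : 0 < s₁) (hs₁1 : s₁ < 1) :
    ∃ s₀ : ℝ, 0 < s₀ ∧ s₀ < s₁ ∧ ∀ rc : ℝ, 0 < rc → 4 * rc ≤ rf → ∃ δ₀ : ℝ, 0 < δ₀ ∧
      ∀ δ' : ℝ, 0 < δ' → δ' ≤ δ₀ → ∃ t₁ m₀ : ℝ, 0 ≤ t₁ ∧ t₁ < 1 ∧ 0 < m₀ ∧
        ∀ m : ℝ, 0 < m → m ≤ m₀ → ∀ s' x3 xB τ κ x' xc ε η e ν : ℝ,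
          Cst x3 xB τ κ x' xc ε η e ν → e ≤ m → ε ≤ m → 4 * m < s' → 2 * δ' < s' → 3 * ν < δ' →
            s' + 3 * ν < s₀ → 10 * ν ≤ s₀ → x3 ≤ 1 - 4 * ν → ∃ r₁ : ℝ, 0 < r₁ ∧
              ∀ r₀ ℓ : ℝ, 0 < ℓ → 40 * ℓ ≤ r₀ → r₀ ≤ r₁ → ∀ᶠ n in atTop,
                ∀ (v₀ : ℤ × ℤ) (xb : ℝ), Frm (δ n) (p n (k n)) v₀ xb →
                  HConf Rd cd Y (psr (δ n) v₀ (ψn n)) →
                  ∀ {ι : Type} {W : ℝ → ℝ} {t σ cg X3 ρ r' s₂ : ℝ} {Gt IN : Set ℂ} {x₁ tp : ℂ}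
                    {K : ι → Set ℂ},
                    Sat T R x3 xB τ κ x' xc ε η e ν X1 X3 (psr (δ n) v₀ (ψn n)) W t σ xb rf cg
                      (3 * H446.G.dl (δ n)) r₀ ρ r' ℓ s₂ Gt IN x₁ tp K →
                    (∀ z ∈ Bf xb rc, 3 * H446.G.dl (δ n) < z.im →
                      z ∈ Ug (FD (psr (δ n) v₀ (ψn n)) W t) σ ε (τ / 2) xc
                        (fun i => dinv (FD (psr (δ n) v₀ (ψn n)) W t) '' K i)) →
                    ∃ s ∈ Icc s₀ s₁, ∃ (x₂ : ℝ) (Kb Xb : Set ℂ) (q : ℂ),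
                      Mk (FD (psr (δ n) v₀ (ψn n)) W t) σ ε (τ / 2) xc e ν (2 * r₀) ℓ
                        (fun i => dinv (FD (psr (δ n) v₀ (ψn n)) W t) '' K i) s s' δ' m h₁ t₁
                        (Bf xb rc) Kb Xb (xb : ℂ) (x₂ : ℂ) q ∧
                      σ * (x₂ - xb) < 0 ∧ |x₂ - xb| < rc ∧
                      (xb : ℂ) ∈ frontier (Pm ℓ (Ug (FD (psr (δ n) v₀ (ψn n)) W t) σ ε (τ / 2) xc
                        (fun i => dinv (FD (psr (δ n) v₀ (ψn n)) W t) '' K i))) ∧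
                      (x₂ : ℂ) ∈ frontier (Pm ℓ (Ug (FD (psr (δ n) v₀ (ψn n)) W t) σ ε (τ / 2) xc
                        (fun i => dinv (FD (psr (δ n) v₀ (ψn n)) W t) '' K i))) := by
  obtain ⟨c, hc, hcls⟩ := cls_FD (T := T) (R := R) hRd hcd hY0 hY hY2
  obtain ⟨s₀, hs0, hs01, hcut⟩ := cut (R := Rd) (c := c) hRd hh hs₁
  refine ⟨s₀, hs0, hs01, fun rc hrc hrc4 => ?_⟩
  obtain ⟨Xr, hXr⟩ := H918.k1 H hrc
  obtain ⟨X₀, hX₀⟩ := side_seq H hK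
  set X : ℝ := max X₀ (max (2 * X1) (max 4 Xr)) with hX
  have hXa : X₀ ≤ X := le_max_left _ _
  have hXb : 2 * X1 ≤ X := (le_max_left _ _).trans (le_max_right _ _)
  have hXc : 4 ≤ X := ((le_max_left _ _).trans (le_max_right _ _)).trans (le_max_right _ _)
  have hXd : Xr ≤ X := ((le_max_right _ _).trans (le_max_right _ _)).trans (le_max_right _ _)
  obtain ⟨d, hd, hside⟩ := hX₀ X hXa
  have hX0 : 0 < X := by linarith
  set cq : ℝ := 1 / (9 * X) with hcq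
  have hcq0 : 0 < cq := by positivity
  refine ⟨cq / 2, by linarith, fun δ' hδ'0 hδ'1 => ?_⟩
  set ν₁ : ℝ := min δ' (min (cq / 2) (1 / 4)) with hν₁
  have n0 : 0 < ν₁ := by positivity
  have n1 : ν₁ ≤ δ' := min_le_left _ _
  have n2 : ν₁ ≤ cq / 2 := (min_le_right _ _).trans (min_le_left _ _)
  have n3 : ν₁ ≤ 1 / 4 := (min_le_right _ _).trans (min_le_right _ _)
  obtain ⟨η₁, hη₁, hsm⟩ := Cls.small_img (R := Rd) (c := c) hRd hc n0
  have hrf0 : 0 < rf := by linarith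
  set η₂ : ℝ := min (η₁ / 16) (min (rf / 16) (min (rc / 2) (d / 2))) with hη₂
  have e0 : 0 < η₂ := by positivity
  have e1 : η₂ ≤ η₁ / 16 := min_le_left _ _
  have e2 : η₂ ≤ rf / 16 := (min_le_right _ _).trans (min_le_left _ _)
  have e3 : η₂ ≤ rc / 2 := ((min_le_right _ _).trans (min_le_right _ _)).trans (min_le_left _ _)
  have e4 : η₂ ≤ d / 2 := ((min_le_right _ _).trans (min_le_right _ _)).trans (min_le_right _ _)
  obtain ⟨y, hy0, hy1, hyn⟩ := hside η₂ e0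
  obtain ⟨X6, hX6⟩ := H918.k1 H e0
  obtain ⟨t₁, ht1, ht2, ht3⟩ := exists_t (X6 := max X6 (max X1 1))
  set ρq : ℝ := √(1 - 4 * (y * Real.exp (-1)) / (1 + 2 * (X + 1)) ^ 2) with hρq
  have hρq1 : ρq < 1 := q_lt hX0 hy0
  refine ⟨t₁, min ((1 - ρq) / 2) ((1 - t₁) / 2), by linarith, ht2,
    lt_min (by linarith) (by linarith), fun m hm hm0 => ?_⟩
  have hm1 : m ≤ (1 - ρq) / 2 := hm0.trans (min_le_left _ _)
  have hm2 : m ≤ (1 - t₁) / 2 := hm0.trans (min_le_right _ _)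
  intro s' x3 xB τ κ x' xc ε η e ν C hem hεm hms hδs hδν hss h10 hx3
  have hν := C.hν
  obtain ⟨δd, hδd, hins⟩ := Cls.inside2 (R := Rd) (c := c) hRd hc (ρ := 1 - s₀) (ρ' := 1 - m)
    (by linarith) (by linarith)
  refine ⟨min (δd / 4) (min (rf / 32) rc), by positivity, fun r₀ ℓ hℓ h40 hr₀ => ?_⟩
  have g1 : r₀ ≤ δd / 4 := hr₀.trans (min_le_left _ _)
  have g2 : r₀ ≤ rf / 32 := hr₀.trans ((min_le_right _ _).trans (min_le_left _ _))
  have g3 : r₀ ≤ rc := hr₀.trans ((min_le_right _ _).trans (min_le_right _ _))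
  have hdl : Tendsto (fun n => 3 * H446.G.dl (δ n)) atTop (𝓝 0) := by
    have := (H446.G.tendsto_dl H.appr.2.1).const_mul 3
    rwa [mul_zero] at this
  have hsmall : ∀ᶠ n in atTop, 3 * H446.G.dl (δ n) < min (η₁ / 16) (rf / 16) :=
    hdl.eventually (gt_mem_nhds (by positivity))
  filter_upwards [hXr, hyn, hX6, hsmall] with n hXr hyn hX6 hsmall v₀ xb hb hψ ι W t σ cg X3 ρ r' s₂
    Gt IN x₁ tp K HS hup
  set ψ' : ℂ → ℂ := psr (δ n) v₀ (ψn n) with hψ'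
  have hσ := HS.sit.hσ
  have hdrv := HS.drv
  have d1 : 3 * H446.G.dl (δ n) < η₁ / 16 := hsmall.trans_le (min_le_left _ _)
  have d2 : 3 * H446.G.dl (δ n) < rf / 16 := hsmall.trans_le (min_le_right _ _)
  have hF := hcls ψ' hψ W t hdrv
  have hconf := HS.conf
  obtain ⟨s, hs, hscut⟩ := hcut _ hF σ hσ
  set zq : ℂ := ⟨σ * X, y⟩ with hzq
  obtain ⟨q1, q2, q3⟩ := q_bounds hdrv hσ h4R h16 (by linarith) hXb hXc hy0 hy1
  obtain ⟨w1, w2⟩ := hyn σ hσ v₀ xb hb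
  have hzn : X ≤ ‖zq‖ := by
    have := Complex.abs_re_le_norm zq
    rw [hzq] at this ⊢
    simp only [abs_mul, hσ, one_mul, abs_of_pos hX0] at this
    exact this
  have hqb : ψ' zq ∈ Bf xb rc := psr_Bf hb (hXr zq hy0.le (hXd.trans hzn))
  have w3 : d ≤ |(ψ' zq).re - xb| := by
    have := neg_abs_le (σ * ((ψ' zq).re - xb))
    rw [abs_mul, hσ, one_mul] at this
    linarith
  -- the point `F t₁`
  have htb : ((t₁ : ℝ) : ℂ) ∈ ball (0 : ℂ) 1 := by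
    rw [mem_ball_zero_iff, Complex.norm_real, Real.norm_of_nonneg (by linarith)]
    exact ht2
  have hFt : FD ψ' W t t₁ ∈ Bf xb η₂ := by
    have h1 : FD ψ' W t t₁ ∈ ψ' '' loewnerDomain W t := by
      rw [← FD_img hdrv ψ']; exact mem_image_of_mem _ htb
    obtain ⟨v, hv, hve⟩ := h1
    have h2 : (pos W t v).re = t₁ := by
      rw [← HS.dinv_ψ hv, hve, hconf.dinv_apply htb, Complex.ofReal_re]
    have h3 := far_of_re hdrv (X1 := X1) (X3 := max X6 (max X1 1)) (by linarith) h4R h16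
      ((le_max_left _ _).trans (le_max_right _ _)) ((le_max_right _ _).trans (le_max_right _ _)) hv
      (by rw [h2]; exact ht3)
    rw [← hve]
    exact psr_Bf hb (hX6 v (Vale.Agent.P164.im_pos_of_dom hdrv.nn hv).le
      ((le_max_left _ _).trans h3.le))
  have hM := mk_hist HS (s := s) (s' := s') (δ' := δ') (m := m) (h₁ := h₁) (t₁ := t₁) (ν₁ := ν₁)
    (η₁ := η₁) (η₂ := η₂) (d₂ := d) (rc := rc) (cq := cq) (zq := zq) hX1 hem hεm hms hδs hδν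
    (by linarith [hs.1]) (by linarith [hs.2]) (by linarith [hs.1]) hx3 hscut ?_ hrc4 (by linarith)
    hup (by linarith) ?_ n1 n3 (by linarith) (by linarith) e0 (by linarith) (by linarith)
    (by linarith) (by linarith) ht1 (by linarith) hFt q1 (by linarith) q3 hqb
    (by linarith [le_abs_self (ψ' zq).im]) w3
  · refine ⟨s, hs, (ψ' zq).re, _, _, _, hM, by linarith, hqb.1, ?_, ?_⟩
    · exact fr_pm HS (by linarith) (by linarith) hup (by simpa using hrc)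
    · exact fr_pm HS (by linarith) (by linarith) hup hqb.1
  · -- deep
    refine (ball_subset_ball (show 2 * r₀ + 16 * ℓ ≤ δd by linarith)).trans
      (hins _ hF _ ?_)
    rw [mem_closedBall_zero_iff, Complex.norm_real, Real.norm_of_nonpos (by linarith [hs.2])]
    linarith [hs.1]
  · -- small sets
    intro C' hC' hpc hdm u hu v hv
    refine hsm _ hF C' (by rw [FD_img hdrv]; exact hC') hpc hdm _ (hconf.dinv_mem (hC' hu)) _
      (hconf.dinv_mem (hC' hv)) ?_ ?_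
    · rw [hconf.apply_dinv (hC' hu)]; exact hu
    · rw [hconf.apply_dinv (hC' hv)]; exact hv

end Vale.Agent.P167.H640.MK
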