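import Vale.Agent.P167.SG.Cls5
import Vale.Agent.P167.H450.OutZ
import Vale.Agent.P167.H450.OutB2
import Vale.Agent.P153.R2.R1.Equi

/-!
# [MK-ASM] (1): the half crosscut, positions of far points, the flat side

* `cut`: length-area, uniform for the maps of the class and both sides;
* `q_bounds`: the position of `± X + i y`;
* `pos_near`: positions of near points of the flat box;
* `pm_up`, `pm_lo`, `fr_pm`: the outer polygon near the target.
-/

set_option autoImplicit false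

namespace Vale.Agent.P167.H640.MK

open Set Metric Filter Topology ComplexConjugate MeasureTheory
open scoped Real ENNReal
open Vale.Agent.P153.R2.R1 (Conf dinv mb norm_mb_lt norm_mb)
open Vale.Agent.P153.R2.L1 (HH)
open Vale.Agent.P164 (loewnerDomain gf Zf)
open Vale.Agent.P167.H756 (Cls FD FD_mb FD_img HConf Drv cls_FD)
open Vale.Agent.P167.H450.Out (OD Pm Hc hc_mem MF Ofc Fil sub_fil mf_of_mem sub_Pm core_mem)
open Vale.Agent.P167.SG Vale.Agent.P167.H450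

/-- **Length-area for the half crosscut.** -/
theorem cut {R c : ℝ} (hR : 0 < R) {h₁ s₁ : ℝ} (hh : 0 < h₁) (hs₁ : 0 < s₁) :
    ∃ s₀, 0 < s₀ ∧ s₀ < s₁ ∧ ∀ F : ℂ → ℂ, Cls R c F → ∀ σ : ℝ, |σ| = 1 →
      ∃ s ∈ Icc s₀ s₁, ∀ w ∈ Hc σ s, ∀ w' ∈ Hc σ s, dist (F w) (F w') ≤ h₁ := by
  set A : ℝ := R ^ 2 * π with hA
  have hA0 : 0 ≤ A := by positivity
  set L : ℝ := 2 * π * A / h₁ ^ 2 + 1 with hL
  have hL0 : 0 < L := by positivity
  set a : ℝ := s₁ * Real.exp (-L) with ha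
  have ha0 : 0 < a := by positivity
  have ha1 : a < s₁ := by
    have : Real.exp (-L) < 1 := by rw [← Real.exp_zero]; exact Real.exp_lt_exp.2 (by linarith)
    calc a < s₁ * 1 := by rw [ha]; gcongr
      _ = s₁ := mul_one _
  have hlog : Real.log (s₁ / a) = L := by
    rw [ha, div_mul_eq_div_div, div_self hs₁.ne', one_div, Real.exp_neg, inv_inv, Real.log_exp]
  have hkey : 2 * π * A < h₁ ^ 2 * Real.log (s₁ / a) := by
    rw [hlog, hL, mul_add, mul_div_cancel₀ _ (by positivity)]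
    have : 0 < h₁ ^ 2 := by positivity
    linarith
  refine ⟨a, ha0, ha1, fun F hF σ hσ => ?_⟩
  have hvol : volume (F '' ball 0 1) ≤ ENNReal.ofReal A := by
    have hsub : F '' ball 0 1 ⊆ closedBall (F 0) R := by
      rintro _ ⟨w, hw, rfl⟩
      rw [mem_closedBall, dist_eq_norm]
      exact hF.bdd w hw
    refine (measure_mono hsub).trans ?_
    rw [Complex.volume_closedBall, hA, ENNReal.ofReal_mul (by positivity), ENNReal.ofReal_pow hR.le]
    gcongr
    rw [← NNReal.coe_real_pi, ENNReal.ofReal_coe_nnreal]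
  obtain ⟨s, hs, hs2⟩ := hF.conf.exists_crosscut hA0 hvol (ζ := -1) (by simp) ha0 ha1 hkey
  refine ⟨s, Ioo_subset_Icc_self hs, fun w hw w' hw' => ?_⟩
  have h1 := hs2 w (hc_mem hσ (ha0.trans hs.1) hw).2.2.2 w' (hc_mem hσ (ha0.trans hs.1) hw').2.2.2
  rw [dist_eq_norm]
  exact (abs_le_of_sq_le_sq' h1 hh.le).2

/-- The imaginary part of the position. -/
theorem im_mb (ζ : ℂ) : (mb 1 Complex.I ζ).im = -2 * ζ.re / ‖ζ + Complex.I‖ ^ 2 := by
  rw [mb, Complex.conj_I, sub_neg_eq_add, one_mul, Complex.div_im, Complex.sq_norm]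
  simp only [Complex.sub_re, Complex.sub_im, Complex.add_re, Complex.add_im, Complex.I_re,
    Complex.I_im, Complex.normSq_apply]
  rw [← sub_div]
  congr 1
  ring

variable {T R : ℝ} {W : ℝ → ℝ} {t : ℝ}

/-- The position of `σ X + i y`. -/
theorem q_bounds (H : Drv T R W t) {X1 X y σ : ℝ} (hσ : |σ| = 1) (h1 : 4 * R ≤ X1)
    (h2 : 16 * T ≤ X1 ^ 2) (hX10 : 0 < X1) (hX1 : 2 * X1 ≤ X) (hX : 4 ≤ X) (hy : 0 < y)
    (hy1 : y ≤ 1) :
    (⟨σ * X, y⟩ : ℂ) ∈ loewnerDomain W t ∧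
      ‖pos W t ⟨σ * X, y⟩‖ ≤ √(1 - 4 * (y * Real.exp (-1)) / (1 + 2 * (X + 1)) ^ 2) ∧
      σ * (pos W t ⟨σ * X, y⟩).im ≤ -(1 / (9 * X)) := by
  have hR := H.R_nonneg
  have hσ2 : σ ^ 2 = 1 := by rw [← sq_abs, hσ]; norm_num
  set z : ℂ := ⟨σ * X, y⟩ with hz
  have hzim : z.im = y := rfl
  have hzre : z.re = σ * X := rfl
  have hn1 : ‖z‖ ≤ X + 1 := by
    refine (Complex.norm_le_abs_re_add_abs_im z).trans ?_
    rw [hzim, hzre, abs_mul, hσ, one_mul, abs_of_nonneg (by linarith), abs_of_pos hy]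
    linarith
  have hn2 : X ≤ ‖z‖ := by
    have := Complex.abs_re_le_norm z
    rw [hzre, abs_mul, hσ, one_mul, abs_of_nonneg (by linarith)] at this
    exact this
  have hzH : z ∈ HH := by
    show 0 < z.im
    rw [hzim]; exact hy
  obtain ⟨hd, -, h4⟩ := zf_far H hX10 h1 h2 hzH (by linarith)
  have h16 : 16 * T ≤ ‖z‖ ^ 2 := h2.trans (by gcongr; linarith)
  have h5 := H.im_ge (z := z) hy (by linarith) h16
  have h6 := H.far (z := z) (by linarith) (by linarith) h16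
  refine ⟨hd, ?_, ?_⟩
  · have e : ‖pos W t z‖ = ‖mb 1 (Zf W z t) Complex.I‖ := by
      rw [pos, norm_mb norm_one, norm_mb norm_one, norm_sub_rev, Complex.conj_I]
      congr 1
      rw [← RCLike.norm_conj (Complex.I - _), map_sub, Complex.conj_conj, Complex.conj_I,
        ← norm_neg]
      congr 1
      ring
    rw [e]
    refine Vale.Agent.P167.H756.norm_mb_le (by positivity) ?_ (by linarith)
    rwa [hzim] at h5
  · rw [pos, im_mb]
    set ζ : ℂ := Zf W z t with hζ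
    have eζ : ζ = Vale.Agent.P167.H947.flow W t z - W t := by
      rw [hζ, Vale.Agent.P167.H947.flow_gf H.nn H.cont.continuousOn hd, Vale.Agent.P164.Zf_eq]
    have h7 : ‖ζ - z‖ ≤ (X + 1) / 4 + R := by
      rw [eζ]
      have e : Vale.Agent.P167.H947.flow W t z - (W t : ℂ) - z =
          (Vale.Agent.P167.H947.flow W t z - z) - W t := by ring
      rw [e]
      refine (norm_sub_le _ _).trans ?_
      rw [Complex.norm_real, Real.norm_eq_abs]
      have := H.bdd t ⟨H.nn, le_rfl⟩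
      linarith [h6.2.2.1]
    have h8 : X / 2 ≤ σ * ζ.re := by
      have h9 := (Complex.abs_re_le_norm (ζ - z)).trans h7
      rw [Complex.sub_re, hzre] at h9
      have h10 : -|ζ.re - σ * X| ≤ σ * (ζ.re - σ * X) := by
        have := neg_abs_le (σ * (ζ.re - σ * X))
        rwa [abs_mul, hσ, one_mul] at this
      have h11 : σ * ζ.re = σ * (ζ.re - σ * X) + σ ^ 2 * X := by ring
      rw [h11, hσ2]
      linarith
    have h12 : ‖ζ + Complex.I‖ ≤ 3 * X := by
      have := Vale.Agent.P167.H756.norm_add_I_le ζ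
      linarith
    have h13 : 0 < ‖ζ + Complex.I‖ :=
      norm_pos_iff.2 (Vale.Agent.P167.H756.add_I_ne (Vale.Agent.P164.Zf_im_pos H.nn hd).le)
    have e : σ * (-2 * ζ.re / ‖ζ + Complex.I‖ ^ 2) = -(2 * (σ * ζ.re) / ‖ζ + Complex.I‖ ^ 2) := by
      ring
    rw [e, neg_le_neg_iff, div_le_div_iff₀ (by linarith) (by positivity)]
    have h14 : ‖ζ + Complex.I‖ ^ 2 ≤ (3 * X) ^ 2 := by gcongr
    nlinarith

theorem q_lt {X y : ℝ} (hX : 0 < X) (hy : 0 < y) :
    √(1 - 4 * (y * Real.exp (-1)) / (1 + 2 * (X + 1)) ^ 2) < 1 := by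
  rw [Real.sqrt_lt' one_pos, one_pow, sub_lt_self_iff]
  positivity

/-! ### The outer polygon near the target -/

/-- The polygon contains the part of the flat box above the line. -/
theorem pm_up {ℓ δ xb rc : ℝ} {U : Set ℂ} (hℓ : 0 < ℓ) (hδ : δ < ℓ / 2) (hrc : ℓ / 2 < rc)
    (hup : ∀ z ∈ Bf xb rc, δ < z.im → z ∈ U) {z : ℂ} (hz : z ∈ Bf xb rc) (hz0 : 0 < z.im) :
    z ∈ Pm ℓ U := by
  by_cases h : δ < z.im
  · exact sub_Pm hℓ (hup z hz h)
  push Not at h
  show z ∈ interior (reg ℓ (Fil (MF ℓ U)))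
  rw [mem_interior_iff hℓ]
  rintro G ⟨g1, g2, g3, g4⟩
  have a1 : (G.2 : ℝ) < 1 := by
    have : ℓ * (G.2 : ℝ) < ℓ * 1 := by linarith
    exact lt_of_mul_lt_mul_left this hℓ.le
  have a2 : (0 : ℝ) < G.2 + 1 := by
    have : ℓ * 0 < ℓ * ((G.2 : ℝ) + 1) := by rw [mul_zero]; linarith
    exact lt_of_mul_lt_mul_left this hℓ.le
  have a3 : G.2 = 0 := by
    have b1 : G.2 < 1 := by exact_mod_cast a1
    have b2 : 0 < G.2 + 1 := by exact_mod_cast a2
    omega
  refine sub_fil (mf_of_mem hℓ (z := ⟨z.re, ℓ / 2⟩) (hup _ ⟨hz.1, ?_⟩ (by simpa using hδ))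
    ⟨g1, g2, ?_, ?_⟩)
  · show |ℓ / 2| < rc
    rw [abs_of_pos (by linarith)]
    exact hrc
  · show ℓ * (G.2 : ℝ) ≤ ℓ / 2
    rw [a3]; push_cast; linarith
  · show ℓ / 2 ≤ ℓ * ((G.2 : ℝ) + 1)
    rw [a3]; push_cast; linarith

section

variable {ι : Type} {x3 xB τ κ x' xc ε η e ν X1 X3 : ℝ} {ψ : ℂ → ℂ}
    {σ xb rf cg δ r₀ ρ r' ℓ s₂ : ℝ} {Gt IN : Set ℂ} {x₁ tp : ℂ} {K : ι → Set ℂ}
    (H : Sat T R x3 xB τ κ x' xc ε η e ν X1 X3 ψ W t σ xb rf cg δ r₀ ρ r' ℓ s₂ Gt IN x₁ tp K)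
include H

/-- The polygon is above the line. -/
theorem pm_lo {z : ℂ} (hz : z ∈ Bf xb (rf / 4))
    (hP : z ∈ Pm ℓ (Ug (FD ψ W t) σ ε (τ / 2) xc (fun i => dinv (FD ψ W t) '' K i))) :
    0 < z.im := by
  have hℓ := H.hℓ
  have hδ := H.flt.hδ
  have h40 := H.h40
  have hδℓ := H.hδℓ
  have hrf := H.hrf
  have hrf0 := H.flt.hrf
  have hcg := H.hcg
  have hUD : Ug (FD ψ W t) σ ε (τ / 2) xc (fun i => dinv (FD ψ W t) '' K i) ⊆
      ψ '' loewnerDomain W t := by rw [← H.img]; exact H.sit.sub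
  set X : Set ℂ := segment ℝ (⟨xb, -(rf / 4)⟩ : ℂ) ⟨xb, -(rf / 2)⟩ ∪ Gt with hX
  have hXc : IsPreconnected X := IsPreconnected.union (⟨xb, -(rf / 2)⟩ : ℂ)
    (right_mem_segment ℝ _ _) H.flt.g0 (convex_segment _ _).isPreconnected H.flt.gc
  have hfar : ∀ x ∈ X, ∀ u ∈ Ug (FD ψ W t) σ ε (τ / 2) xc (fun i => dinv (FD ψ W t) '' K i),
      3 * ℓ < dist x u := by
    rintro x (hx | hx) u hu
    · by_contra hcon
      push Not at hcon
      have a1 := seg_re hx
      have a2 := seg_im hx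
      simp only [min_self, max_self] at a1
      have e1 : x.re = xb := le_antisymm a1.2 a1.1
      simp only at a2
      have e2 : max (-(rf / 4)) (-(rf / 2)) = -(rf / 4) := max_eq_left (by linarith)
      have e3 : min (-(rf / 4)) (-(rf / 2)) = -(rf / 2) := min_eq_right (by linarith)
      rw [e2, e3] at a2
      have hcon' : ‖x - u‖ ≤ 3 * ℓ := by rwa [← dist_eq_norm]
      have h3 := (Complex.abs_im_le_norm (x - u)).trans hcon'
      have h4 := (Complex.abs_re_le_norm (x - u)).trans hcon'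
      rw [Complex.sub_im, abs_le] at h3
      rw [Complex.sub_re, abs_le] at h4
      have hub : u ∈ Bf xb rf :=
        ⟨abs_lt.2 ⟨by linarith, by linarith⟩, abs_lt.2 ⟨by linarith, by linarith⟩⟩
      have h5 := H.flt.low' H.drv H.h4 H.h16 (hUD hu) hub
      linarith
    · have := H.flt.gfar x hx u (H.sub_HH (hUD hu))
      linarith
  have h := Out.flat_low (ρ := rf / 2) (b := 0) hℓ (xb := xb)
    (U := Ug (FD ψ W t) σ ε (τ / 2) xc (fun i => dinv (FD ψ W t) '' K i)) (X := X)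
    (k := ⟨xb, -(rf / 4)⟩) (x₁ := x₁) (z := z) ?_ hXc hfar (Or.inr H.flt.g1) ?_
    (Or.inl (left_mem_segment ℝ _ _)) ?_ ?_ ?_ ?_ ?_ hP
  · simpa using h
  · intro w h1 h2 h3
    simp only [Int.cast_zero, mul_zero, zero_sub] at h2 h3
    exact H.flat_lo ⟨h1, abs_lt.2 ⟨h2, by linarith⟩⟩ h3
  · intro u hu
    have := H.flt.g2 u (H.sub_HH (hUD hu))
    linarith
  · simp only [sub_self, abs_zero]
    linarith
  · simp only [Int.cast_zero, mul_zero, zero_sub]
    linarith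
  · simp only [Int.cast_zero, mul_zero]
    linarith
  · exact hz.1.trans_le (by linarith)
  · simp only [Int.cast_zero, mul_zero, sub_zero]
    exact hz.2.trans_le (by linarith)

/-- The points of the line are boundary points. -/
theorem fr_pm {rc : ℝ} (hrc : rc ≤ rf / 4) (hrc2 : ℓ / 2 < rc)
    (hup : ∀ z ∈ Bf xb rc, δ < z.im →
      z ∈ Ug (FD ψ W t) σ ε (τ / 2) xc (fun i => dinv (FD ψ W t) '' K i)) {x : ℝ}
    (hx : |x - xb| < rc) :
    (x : ℂ) ∈ frontier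
      (Pm ℓ (Ug (FD ψ W t) σ ε (τ / 2) xc (fun i => dinv (FD ψ W t) '' K i))) := by
  have hℓ := H.hℓ
  have hδℓ := H.hδℓ
  have hb : (x : ℂ) ∈ Bf xb rc := ⟨by simpa using hx, by
    simp only [Complex.ofReal_im, abs_zero]
    linarith⟩
  rw [Out.isOpen_Pm.frontier_eq]
  refine ⟨?_, fun h => ?_⟩
  · rw [Metric.mem_closure_iff]
    intro ε' hε'
    set y : ℝ := min (ε' / 2) (rc / 2) with hy
    have hy0 : 0 < y := lt_min (by linarith) (by linarith)
    refine ⟨⟨x, y⟩, pm_up hℓ (by linarith) hrc2 hup ⟨by simpa using hx, ?_⟩ hy0, ?_⟩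
    · show |y| < rc
      rw [abs_of_pos hy0]
      linarith [min_le_right (ε' / 2) (rc / 2)]
    · rw [dist_comm, dist_eq_norm]
      have e1 : (⟨x, y⟩ : ℂ) - (x : ℂ) = (y : ℂ) * Complex.I := by apply Complex.ext <;> simp
      rw [e1, norm_mul, Complex.norm_I, mul_one, Complex.norm_real, Real.norm_of_nonneg hy0.le]
      linarith [min_le_left (ε' / 2) (rc / 2)]
  · have := pm_lo H (bf_mono hrc hb) h
    simp at this

/-- Positions of near points of the flat box. -/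
theorem pos_near {ν₁ η₁ d : ℝ} (hsm : ∀ C' ⊆ ψ '' loewnerDomain W t, IsPreconnected C' →
      (∀ x ∈ C', ∀ y ∈ C', dist x y ≤ η₁) → ∀ u ∈ C', ∀ v ∈ C',
        dist (dinv (FD ψ W t) u) (dinv (FD ψ W t) v) ≤ ν₁) {u v : ℂ}
    (hu : u ∈ ψ '' loewnerDomain W t) (hv : v ∈ ψ '' loewnerDomain W t)
    (hub : u ∈ Bf xb (rf / 2)) (hd : 0 < d) (huv : dist u v ≤ d) (h1 : 2 * d + 4 * δ ≤ rf / 2)
    (h2 : 2 * (2 * d + 4 * δ) ≤ η₁) :
    dist (dinv (FD ψ W t) u) (dinv (FD ψ W t) v) ≤ ν₁ := by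
  obtain ⟨C', j1, j2, j3, j4, j5⟩ := H.flt.join H.drv H.h4 H.h16 hu hv hub hd huv h1
  refine hsm C' j2 j1 (fun x hx y hy => ?_) u j4 v j5
  have h3 := mem_ball.1 (j3 hx)
  have h4 := mem_ball.1 (j3 hy)
  have h5 := dist_triangle_right x y u
  linarith

end

end Vale.Agent.P167.H640.MK
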