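import Vale.Agent.P167.H640.MK.All
import Vale.Agent.P167.H450.MkC
import Vale.Agent.P167.H756.Exn

/-!
# [MK-ASM] (5): the mark in the form of `H704.Shp.Cx`
-/

set_option autoImplicit false

open Filter Topology Set Metric

namespace Vale.Agent.P167.H640.MK

open Vale.Agent.P153.R2
open Vale.Agent.P153.R2.R1 (Conf dinv)
open Vale.Agent.P153.R2.L1 (HH)
open Vale.Agent.P164 (loewnerDomain Zf)
open Vale.Agent.P167.E6 (pt)
open Vale.Agent.P167.H411 (Set6)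
open Vale.Agent.P167.H192 (ro)
open Vale.Agent.P167.SG
open Vale.Agent.P167.H446.G (psr rt)
open Vale.Agent.P167.H756 (Cls FD FD_mb FD_img HConf Drv cls_FD)
open Vale.Agent.P167.H450.Out (Pm Hc Mk IsMk xre)

variable {Φ : (ℝ × ℝ) ≃ₜ (ℝ × ℝ)} {ψ : ℂ → ℂ} {δ : ℕ → ℝ} {N k : ℕ → ℕ}
  {p : ∀ n, ZMod (N n) → ℤ × ℤ} {S : ℕ → Finset (ℤ × ℤ)} {ψn : ℕ → ℂ → ℂ}

/-- The uniformizers in the frame. -/
theorem hconf_psr (H : Set6 Φ ψ δ N k p S ψn) {Y : ℝ} (hY : 0 < Y) :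
    ∃ Rd > 0, ∃ cd > 0, ∀ᶠ n in atTop, ∀ v₀ : ℤ × ℤ, HConf Rd cd Y (psr (δ n) v₀ (ψn n)) := by
  obtain ⟨Rd, hRd, cd, hcd, h⟩ := H756.hconf H hY
  refine ⟨Rd, hRd, cd, hcd, ?_⟩
  filter_upwards [h] with n hn v₀
  have h1 := hn.affine H446.G.rt_ne (-((H446.G.dl (δ n) : ℂ) * pt v₀))
  rw [H446.G.norm_rt, one_mul, one_mul] at h1
  exact h1

theorem frm_of {δ : ℝ} {b v₀ : ℤ × ℤ} (h : v₀.2 = (ro b).2) :
    Frm δ b v₀ (H446.G.dl δ * (((ro b).1 - v₀.1 : ℤ) : ℝ)) := by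
  unfold Frm
  rw [H446.G.rt_pt]
  apply Complex.ext
  · simp only [pt, Complex.add_re, Complex.neg_re, Complex.re_ofReal_mul, Complex.ofReal_re]
    push_cast
    ring
  · simp only [pt, Complex.add_im, Complex.neg_im, Complex.im_ofReal_mul, Complex.ofReal_im]
    rw [h]
    ring

/-- **[MK-ASM]** The mark of every history. -/
theorem mk_cx (H : Set6 Φ ψ δ N k p S ψn) (hK : QE.Stair 3 Φ δ N k p S)
    {T R X1 X3 rf rc h₁ b₁ : ℝ} (hT : 0 ≤ T) (hR : 0 ≤ R) (hX1 : 2 ≤ X1) (h4R : 4 * R ≤ X1)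
    (h16 : 16 * T ≤ X1 ^ 2) (hrc : 0 < rc) (hrcf : rc ≤ rf) (hh : 0 < h₁) (hhrf : 4 * h₁ ≤ rf)
    (hb₁ : 0 < b₁) :
    ∃ a₀ b₀ rd : ℝ, 0 < a₀ ∧ a₀ < b₀ ∧ b₀ ≤ b₁ ∧ b₀ ≤ 1 / 2 ∧ 0 < rd ∧ 2 * rd ≤ rc ∧
      ∃ m t₁ κ₀ : ℝ, 0 < m ∧ m ≤ a₀ / 128 ∧ 0 ≤ t₁ ∧ t₁ < 1 ∧ 0 < κ₀ ∧ κ₀ ≤ m ∧ κ₀ ≤ a₀ / 512 ∧
        ∀ {xB τ κ x' xc ε η e ν : ℝ}, Cst (xre X3) xB τ κ x' xc ε η e ν → κ ≤ κ₀ →
          ∃ r₁ : ℝ, 0 < r₁ ∧ ∀ r₀ ℓ : ℝ, 0 < ℓ → 40 * ℓ ≤ r₀ → r₀ ≤ r₁ → ∀ᶠ n in atTop,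
            ∀ (v₀ : ℤ × ℤ) (xb : ℝ), Frm (δ n) (p n (k n)) v₀ xb →
              ∀ {ι : Type} {W : ℝ → ℝ} {t σ cg ρ r' s₂ : ℝ} {Gt IN : Set ℂ} {x₁ tp : ℂ}
                {K : ι → Set ℂ},
                Sat T R (xre X3) xB τ κ x' xc ε η e ν X1 X3 (psr (δ n) v₀ (ψn n)) W t σ xb rf cg
                  (3 * H446.G.dl (δ n)) r₀ ρ r' ℓ s₂ Gt IN x₁ tp K →
                (∀ z ∈ Bf xb rc, 3 * H446.G.dl (δ n) < z.im →
                  z ∈ Ug (FD (psr (δ n) v₀ (ψn n)) W t) σ ε (τ / 2) xc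
                    (fun i => dinv (FD (psr (δ n) v₀ (ψn n)) W t) '' K i)) →
                ∃ (sm x₂ : ℝ) (Kb Xb : Set ℂ) (q : ℂ), a₀ < sm ∧ sm < b₀ ∧
                  Mk (FD (psr (δ n) v₀ (ψn n)) W t) σ ε (τ / 2) xc e ν (2 * r₀) ℓ
                    (fun i => dinv (FD (psr (δ n) v₀ (ψn n)) W t) '' K i) sm (a₀ / 2) (a₀ / 8) m h₁
                    t₁ (Bf xb (rc / 4)) Kb Xb (xb : ℂ) (x₂ : ℂ) q ∧
                  (x₂ : ℂ) ∈ Bf xb (rc / 4) ∧ x₂ = (FD (psr (δ n) v₀ (ψn n)) W t q).re ∧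
                  rd ≤ |x₂ - xb| ∧
                  Xb = segment ℝ (FD (psr (δ n) v₀ (ψn n)) W t q) (x₂ : ℂ) ∧
                  σ * (x₂ - xb) < 0 ∧
                  (∀ x : ℝ, |x - xb| < rc / 4 → (x : ℂ) ∈ frontier
                    (Pm ℓ (Ug (FD (psr (δ n) v₀ (ψn n)) W t) σ ε (τ / 2) xc
                      (fun i => dinv (FD (psr (δ n) v₀ (ψn n)) W t) '' K i)))) ∧
                  ∃ (e' : ℂ) (Km : Set ℂ),
                    IsMk (Pm ℓ (Ug (FD (psr (δ n) v₀ (ψn n)) W t) σ ε (τ / 2) xc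
                      (fun i => dinv (FD (psr (δ n) v₀ (ψn n)) W t) '' K i)))
                      (Ug (FD (psr (δ n) v₀ (ψn n)) W t) σ ε (τ / 2) xc
                        (fun i => dinv (FD (psr (δ n) v₀ (ψn n)) W t) '' K i))
                      (FD (psr (δ n) v₀ (ψn n)) W t) σ ν sm ℓ (h₁ + 2 * (2 * r₀) + 3 * ℓ)
                      (FD (psr (δ n) v₀ (ψn n)) W t ((-1 + sm : ℝ) : ℂ)) e' Km := by
  set Y : ℝ := 8 * R + 8 * T + 8 with hYdef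
  have hY0 : 0 < Y := by positivity
  have hY : 8 * R ≤ Y := by linarith
  have hY2 : 64 * T ≤ Y ^ 2 := by nlinarith [mul_nonneg hR hT]
  obtain ⟨Rd, hRd, cd, hcd, hconfn⟩ := hconf_psr H hY0
  obtain ⟨c, hc, hcls⟩ := cls_FD (T := T) (R := R) hRd hcd hY0 hY hY2
  obtain ⟨Xr, hXr⟩ := H918.k1 H (show 0 < rc / 4 by linarith)
  obtain ⟨X₀, hX₀⟩ := side_seq H hK
  set X : ℝ := max X₀ (max (2 * X1) (max 4 Xr)) with hX
  have hXa : X₀ ≤ X := le_max_left _ _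
  have hXb : 2 * X1 ≤ X := (le_max_left _ _).trans (le_max_right _ _)
  have hXc : 4 ≤ X := ((le_max_left _ _).trans (le_max_right _ _)).trans (le_max_right _ _)
  have hXd : Xr ≤ X := ((le_max_right _ _).trans (le_max_right _ _)).trans (le_max_right _ _)
  obtain ⟨d, hd, hside⟩ := hX₀ X hXa
  have hX0 : 0 < X := by linarith
  set cq : ℝ := 1 / (9 * X) with hcq
  have hcq0 : 0 < cq := by positivity
  set b₀ : ℝ := min b₁ (min (1 / 2) cq) with hb₀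
  have b00 : 0 < b₀ := by positivity
  have b01 : b₀ ≤ b₁ := min_le_left _ _
  have b02 : b₀ ≤ 1 / 2 := (min_le_right _ _).trans (min_le_left _ _)
  have b03 : b₀ ≤ cq := (min_le_right _ _).trans (min_le_right _ _)
  obtain ⟨s₀, hs0, hs01, hcut⟩ := cut (R := Rd) (c := c) hRd hh (show 0 < b₀ / 2 by linarith)
  set a₀ : ℝ := s₀ / 2 with ha₀
  have a00 : 0 < a₀ := by positivity
  refine ⟨a₀, b₀, min d (rc / 2), a00, by linarith, b01, b02, lt_min hd (by linarith),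
    by linarith [min_le_right d (rc / 2)], ?_⟩
  set δ' : ℝ := a₀ / 8 with hδ'
  have hδ'0 : 0 < δ' := by positivity
  have hδ'1 : δ' ≤ cq / 2 := by linarith
  set ν₁ : ℝ := min δ' (min (cq / 2) (1 / 4)) with hν₁
  have n0 : 0 < ν₁ := by positivity
  have n1 : ν₁ ≤ δ' := min_le_left _ _
  have n2 : ν₁ ≤ cq / 2 := (min_le_right _ _).trans (min_le_left _ _)
  have n3 : ν₁ ≤ 1 / 4 := (min_le_right _ _).trans (min_le_right _ _)
  obtain ⟨η₁, hη₁, hsm⟩ := Cls.small_img (R := Rd) (c := c) hRd hc n0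
  have hrf0 : 0 < rf := by linarith
  set η₂ : ℝ := min (η₁ / 16) (min (rf / 16) (min (rc / 8) (d / 2))) with hη₂
  have e0 : 0 < η₂ := by positivity
  have e1 : η₂ ≤ η₁ / 16 := min_le_left _ _
  have e2 : η₂ ≤ rf / 16 := (min_le_right _ _).trans (min_le_left _ _)
  have e3 : η₂ ≤ rc / 8 := ((min_le_right _ _).trans (min_le_right _ _)).trans (min_le_left _ _)
  have e4 : η₂ ≤ d / 2 := ((min_le_right _ _).trans (min_le_right _ _)).trans (min_le_right _ _)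
  obtain ⟨y, hy0, hy1, hyn⟩ := hside η₂ e0
  obtain ⟨X6, hX6⟩ := H918.k1 H e0
  obtain ⟨t₁, ht1, ht2, ht3⟩ := exists_t (X6 := max X6 (max X1 1))
  set ρq : ℝ := √(1 - 4 * (y * Real.exp (-1)) / (1 + 2 * (X + 1)) ^ 2) with hρq
  have hρq1 : ρq < 1 := q_lt hX0 hy0
  set m : ℝ := min (a₀ / 128) (min ((1 - ρq) / 2) ((1 - t₁) / 2)) with hm
  have hm0 : 0 < m := lt_min (by positivity) (lt_min (by linarith) (by linarith))
  have hma : m ≤ a₀ / 128 := min_le_left _ _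
  have hm1 : m ≤ (1 - ρq) / 2 := (min_le_right _ _).trans (min_le_left _ _)
  have hm2 : m ≤ (1 - t₁) / 2 := (min_le_right _ _).trans (min_le_right _ _)
  have hx31 : xre X3 < 1 := by
    unfold xre
    rw [div_lt_one (by positivity)]
    linarith
  set κ₀ : ℝ := min m (min (a₀ / 512) ((1 - xre X3) / 4)) with hκ₀
  have k0 : 0 < κ₀ := lt_min hm0 (lt_min (by positivity) (by linarith))
  have k1 : κ₀ ≤ m := min_le_left _ _
  have k2 : κ₀ ≤ a₀ / 512 := (min_le_right _ _).trans (min_le_left _ _)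
  have k3 : κ₀ ≤ (1 - xre X3) / 4 := (min_le_right _ _).trans (min_le_right _ _)
  refine ⟨m, t₁, κ₀, hm0, hma, by linarith, ht2, k0, k1, k2, fun {xB τ κ x' xc ε η e ν} C hκ => ?_⟩
  have hν := C.hν
  have he := C.he
  have hε := C.hε
  have hg2 := C.g2
  obtain ⟨δd, hδd, hins⟩ := Cls.inside2 (R := Rd) (c := c) hRd hc (ρ := 1 - s₀) (ρ' := 1 - m)
    (by linarith) (by linarith)
  refine ⟨min (δd / 4) (min (rf / 32) (rc / 4)), by positivity, fun r₀ ℓ hℓ h40 hr₀ => ?_⟩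
  have g1 : r₀ ≤ δd / 4 := hr₀.trans (min_le_left _ _)
  have g2 : r₀ ≤ rf / 32 := hr₀.trans ((min_le_right _ _).trans (min_le_left _ _))
  have g3 : r₀ ≤ rc / 4 := hr₀.trans ((min_le_right _ _).trans (min_le_right _ _))
  have hdl : Tendsto (fun n => 3 * H446.G.dl (δ n)) atTop (𝓝 0) := by
    have := (H446.G.tendsto_dl H.appr.2.1).const_mul 3
    rwa [mul_zero] at this
  have hsmall : ∀ᶠ n in atTop, 3 * H446.G.dl (δ n) < min (η₁ / 16) (rf / 16) :=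
    hdl.eventually (gt_mem_nhds (by positivity))
  filter_upwards [hXr, hyn, hX6, hsmall, hconfn] with n hXr hyn hX6 hsmall hψn v₀ xb hb ι W t σ cg ρ
    r' s₂ Gt IN x₁ tp K HS hup
  have hψ := hψn v₀
  set ψ' : ℂ → ℂ := psr (δ n) v₀ (ψn n) with hψ'
  have hσ := HS.sit.hσ
  have hdrv := HS.drv
  have d1 : 3 * H446.G.dl (δ n) < η₁ / 16 := hsmall.trans_le (min_le_left _ _)
  have d2 : 3 * H446.G.dl (δ n) < rf / 16 := hsmall.trans_le (min_le_right _ _)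
  have hF := hcls ψ' hψ W t hdrv
  have hconf := HS.conf
  obtain ⟨s, hs, hscut⟩ := hcut _ hF σ hσ
  set zq : ℂ := ⟨σ * X, y⟩ with hzq
  obtain ⟨q1, q2, q3⟩ := q_bounds hdrv hσ h4R h16 (by linarith) hXb hXc hy0 hy1
  obtain ⟨w1, w2⟩ := hyn σ hσ v₀ xb hb
  have hzn : X ≤ ‖zq‖ := by
    have := Complex.abs_re_le_norm zq
    rw [hzq] at this ⊢
    simp only [abs_mul, hσ, one_mul, abs_of_pos hX0] at this
    exact this
  have hqb : ψ' zq ∈ Bf xb (rc / 4) := psr_Bf hb (hXr zq hy0.le (hXd.trans hzn))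
  have w3 : d ≤ |(ψ' zq).re - xb| := by
    have := neg_abs_le (σ * ((ψ' zq).re - xb))
    rw [abs_mul, hσ, one_mul] at this
    linarith
  have hup' : ∀ z ∈ Bf xb (rc / 4), 3 * H446.G.dl (δ n) < z.im →
      z ∈ Ug (FD ψ' W t) σ ε (τ / 2) xc (fun i => dinv (FD ψ' W t) '' K i) :=
    fun z hz hz2 => hup z (bf_mono (by linarith) hz) hz2
  -- the point `F t₁`
  have htb : ((t₁ : ℝ) : ℂ) ∈ ball (0 : ℂ) 1 := by
    rw [mem_ball_zero_iff, Complex.norm_real, Real.norm_of_nonneg (by linarith)]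
    exact ht2
  have hFt : FD ψ' W t t₁ ∈ Bf xb η₂ := by
    have h1 : FD ψ' W t t₁ ∈ ψ' '' loewnerDomain W t := by
      rw [← FD_img hdrv ψ']; exact mem_image_of_mem _ htb
    obtain ⟨v, hv, hve⟩ := h1
    have h2 : (pos W t v).re = t₁ := by
      rw [← HS.dinv_ψ hv, hve, hconf.dinv_apply htb, Complex.ofReal_re]
    have h3 := far_of_re hdrv (X1 := X1) (X3 := max X6 (max X1 1)) (by linarith) h4R h16
      ((le_max_left _ _).trans (le_max_right _ _)) ((le_max_right _ _).trans (le_max_right _ _)) hv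
      (by rw [h2]; exact ht3)
    rw [← hve]
    exact psr_Bf hb (hX6 v (Vale.Agent.P164.im_pos_of_dom hdrv.nn hv).le
      ((le_max_left _ _).trans h3.le))
  have hFq : FD ψ' W t (pos W t zq) = ψ' zq := FD_mb hdrv ψ' q1
  have hM := mk_hist HS (s := s) (s' := a₀ / 2) (δ' := δ') (m := m) (h₁ := h₁) (t₁ := t₁)
    (ν₁ := ν₁) (η₁ := η₁) (η₂ := η₂) (d₂ := d) (rc := rc / 4) (cq := cq) (zq := zq) hX1
    (by linarith) (by linarith) (by linarith) (by linarith) (by linarith)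
    (by linarith [hs.1]) (by linarith [hs.2]) (by linarith [hs.1]) (by linarith) hscut ?_
    (by linarith) (by linarith) hup' (by linarith) ?_ n1 n3 (by linarith) (by linarith) e0
    (by linarith) (by linarith) (by linarith) (by linarith) ht1 (by linarith) hFt q1 (by linarith)
    q3 hqb (by linarith [le_abs_self (ψ' zq).im]) w3
  · refine ⟨s, (ψ' zq).re, _, _, _, by linarith [hs.1], by linarith [hs.2], hM, ?_, ?_,
      (min_le_left _ _).trans w3, ?_, by linarith, ?_, hM.exists_mark⟩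
    · refine ⟨by simpa using hqb.1, ?_⟩
      simp only [Complex.ofReal_im, abs_zero]
      linarith
    · rw [hFq]
    · rw [hFq]
    · intro x hx
      exact fr_pm HS (by linarith) (by linarith) hup' hx
  · -- deep
    refine (ball_subset_ball (show 2 * r₀ + 16 * ℓ ≤ δd by linarith)).trans
      (hins _ hF _ ?_)
    rw [mem_closedBall_zero_iff, Complex.norm_real, Real.norm_of_nonpos (by linarith [hs.2])]
    linarith [hs.1]
  · -- small sets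
    intro C' hC' hpc hdm u hu v hv
    refine hsm _ hF C' (by rw [FD_img hdrv]; exact hC') hpc hdm _ (hconf.dinv_mem (hC' hu)) _
      (hconf.dinv_mem (hC' hv)) ?_ ?_
    · rw [hconf.apply_dinv (hC' hu)]; exact hu
    · rw [hconf.apply_dinv (hC' hv)]; exact hv

end Vale.Agent.P167.H640.MK
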