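import Vale.Agent.P167.H640.MK.Cut

/-!
# [MK-ASM] (2): the structure `Mk` for one history
-/

set_option autoImplicit false

namespace Vale.Agent.P167.H640.MK

open Set Metric Filter Topology
open Vale.Agent.P153.R2.R1 (Conf dinv mb norm_mb_lt norm_mb)
open Vale.Agent.P153.R2.L1 (HH)
open Vale.Agent.P164 (loewnerDomain gf Zf)
open Vale.Agent.P167.H756 (Cls FD FD_mb FD_img HConf Drv cls_FD)
open Vale.Agent.P167.H450.Out (OD Pm Hc hc_mem MF Ofc Fil sub_fil mf_of_mem sub_Pm core_mem Mk)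
open Vale.Agent.P167.SG Vale.Agent.P167.H450

/-- Safe positions near the pushed-in arc are near `+ 1`. -/
theorem re_of_safe {σ ν s x3 : ℝ} {w : ℂ} (hσ : |σ| = 1) (hν : 0 < ν) (h10 : 10 * ν ≤ s)
    (hs : s < 1) (hx3 : x3 ≤ 1 - 4 * ν) (hw : ‖w‖ < 1) (hn : Nr2 σ ν w) (h1 : s - 2 * ν ≤ ‖w + 1‖)
    (h2 : -(2 * ν) ≤ σ * w.im) : x3 < w.re := by
  obtain ⟨ω, o1, o2, o3⟩ := hn
  have hσ2 : σ ^ 2 = 1 := by rw [← sq_abs, hσ]; norm_num
  have hnw : 1 - 2 * ν ≤ ‖w‖ := by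
    have := norm_sub_norm_le ω w
    rw [← dist_eq_norm, dist_comm, o1] at this
    linarith
  have h3 : σ * w.im ≤ 2 * ν := by
    have h4 : |w.im - ω.im| ≤ dist w ω := by
      rw [dist_eq_norm, ← Complex.sub_im]; exact Complex.abs_im_le_norm _
    have h5 : σ * (w.im - ω.im) ≤ |w.im - ω.im| := by
      have := le_abs_self (σ * (w.im - ω.im))
      rwa [abs_mul, hσ, one_mul] at this
    have h6 : σ * w.im = σ * (w.im - ω.im) + σ * ω.im := by ring
    linarith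
  have h4 : w.im ^ 2 ≤ (2 * ν) ^ 2 := by
    have e : w.im ^ 2 = (σ * w.im) ^ 2 := by rw [mul_pow, hσ2, one_mul]
    rw [e]
    exact sq_le_sq' h2 h3
  have h5 : ‖w‖ ^ 2 = w.re ^ 2 + w.im ^ 2 := by
    rw [Complex.sq_norm, Complex.normSq_apply]; ring
  have h6 : (1 - 2 * ν) ^ 2 ≤ ‖w‖ ^ 2 := by
    have : 0 ≤ 1 - 2 * ν := by linarith
    gcongr
  have h7 : 1 - 4 * ν ≤ w.re ^ 2 := by nlinarith
  by_contra hcon
  push Not at hcon
  have h8 : w.re ≤ 1 - 4 * ν := hcon.trans hx3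
  rcases le_total 0 w.re with h9 | h9
  · nlinarith
  · have h10' : |w.re| < 1 := (Complex.abs_re_le_norm w).trans_lt hw
    rw [abs_of_nonpos h9] at h10'
    have h11 : w.re ^ 2 ≤ -w.re := by nlinarith
    have h12 : |w.im| ≤ 2 * ν := abs_le_of_sq_le_sq h4 (by linarith)
    have h13 : ‖w + 1‖ ≤ |w.re + 1| + |w.im| := by
      have := Complex.norm_le_abs_re_add_abs_im (w + 1)
      simpa using this
    rw [abs_of_nonneg (by linarith : 0 ≤ w.re + 1)] at h13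
    linarith

theorem convex_Bf (xb r : ℝ) : Convex ℝ (Bf xb r) := by
  have e : Bf xb r = {w : ℂ | w.re < xb + r} ∩ {w | xb - r < w.re} ∩
      {w | -r < w.im} ∩ {w | w.im < r} := by
    ext w
    simp only [Bf, mem_ofPred_eq, mem_inter_iff, abs_lt]
    constructor
    · rintro ⟨⟨h1, h2⟩, h3, h4⟩
      exact ⟨⟨⟨by linarith, by linarith⟩, by linarith⟩, h4⟩
    · rintro ⟨⟨⟨h1, h2⟩, h3⟩, h4⟩
      exact ⟨⟨by linarith, by linarith⟩, by linarith, h4⟩
  rw [e]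
  exact (((convex_halfSpace_re_lt _).inter (convex_halfSpace_re_gt _)).inter
    (convex_halfSpace_im_gt _)).inter (convex_halfSpace_im_lt _)

theorem isCompact_seg (a b : ℂ) : IsCompact (segment ℝ a b) := by
  rw [segment_eq_image]
  exact isCompact_Icc.image (by fun_prop)

/-- A segment from a point above the line to a point of the line. -/
theorem seg_sub {P : Set ℂ} {xb rc x : ℝ} (hP : ∀ z ∈ Bf xb rc, 0 < z.im → z ∈ P) {a : ℂ}
    (ha : a ∈ Bf xb rc) (ha0 : 0 < a.im) (hx : (x : ℂ) ∈ Bf xb rc) :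
    segment ℝ a (x : ℂ) ⊆ insert (x : ℂ) P := by
  intro z hz
  have hzb := (convex_Bf xb rc).segment_subset ha hx hz
  obtain ⟨s, t, hs, ht, hst, rfl⟩ := hz
  rcases hs.eq_or_lt with h | h
  · left
    have : t = 1 := by linarith
    rw [← h, this, zero_smul, one_smul, zero_add]
  · right
    refine hP _ hzb ?_
    simp only [Complex.add_im, Complex.smul_im, smul_eq_mul, Complex.ofReal_im, mul_zero, add_zero]
    positivity

section

variable {T R : ℝ} {W : ℝ → ℝ} {t : ℝ} {ι : Type} {x3 xB τ κ x' xc ε η e ν X1 X3 : ℝ} {ψ : ℂ → ℂ}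
    {σ xb rf cg δ r₀ ρ r' ℓ s₂ : ℝ} {Gt IN : Set ℂ} {x₁ tp : ℂ} {K : ι → Set ℂ}

/-- **The data of the mark for one history.** -/
theorem mk_hist
    (H : Sat T R x3 xB τ κ x' xc ε η e ν X1 X3 ψ W t σ xb rf cg δ r₀ ρ r' ℓ s₂ Gt IN x₁ tp K)
    {s s' δ' m h₁ t₁ ν₁ η₁ η₂ d₂ rc cq : ℝ} {zq : ℂ} (hX1 : 2 ≤ X1) (hem : e ≤ m) (hεm : ε ≤ m)
    (hms : 4 * m < s') (hδs : 2 * δ' < s') (hδν : 3 * ν < δ') (hss : s' + 3 * ν < s) (hs1 : s < 1)
    (h10 : 10 * ν ≤ s) (hx3 : x3 ≤ 1 - 4 * ν)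
    (hcut : ∀ w ∈ Hc σ s, ∀ w' ∈ Hc σ s, dist (FD ψ W t w) (FD ψ W t w') ≤ h₁)
    (hdeep : ball (FD ψ W t ((-1 + s : ℝ) : ℂ)) (2 * r₀ + 16 * ℓ) ⊆ FD ψ W t '' ball 0 (1 - m))
    (hrc4 : 4 * rc ≤ rf) (hℓrc : ℓ / 2 < rc)
    (hup : ∀ z ∈ Bf xb rc, δ < z.im →
      z ∈ Ug (FD ψ W t) σ ε (τ / 2) xc (fun i => dinv (FD ψ W t) '' K i))
    (hh1 : h₁ + 4 * r₀ + 3 * ℓ ≤ rf / 2)
    (hsm : ∀ C' ⊆ ψ '' loewnerDomain W t, IsPreconnected C' →
      (∀ x ∈ C', ∀ y ∈ C', dist x y ≤ η₁) → ∀ u ∈ C', ∀ v ∈ C',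
        dist (dinv (FD ψ W t) u) (dinv (FD ψ W t) v) ≤ ν₁)
    (hν1 : ν₁ ≤ δ') (hν2 : ν₁ ≤ 1 / 4) (hν3 : ν₁ + δ' ≤ cq) (hδq : δ' < cq) (hη2 : 0 < η₂)
    (hη3 : 8 * η₂ + 8 * δ ≤ η₁) (hη4 : 4 * η₂ + 4 * δ ≤ rf / 2) (hη5 : η₂ ≤ rc) (hη6 : η₂ < d₂)
    (ht1 : 1 / 2 ≤ t₁) (ht2 : t₁ < 1 - m) (ht3 : FD ψ W t t₁ ∈ Bf xb η₂)
    (hqd : zq ∈ loewnerDomain W t) (hqn : ‖pos W t zq‖ < 1 - m) (hqi : σ * (pos W t zq).im ≤ -cq)
    (hqb : ψ zq ∈ Bf xb rc) (hqh : (ψ zq).im ≤ 2 * η₂) (hqr : d₂ ≤ |(ψ zq).re - xb|) :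
    Mk (FD ψ W t) σ ε (τ / 2) xc e ν (2 * r₀) ℓ (fun i => dinv (FD ψ W t) '' K i) s s' δ' m h₁ t₁
      (Bf xb rc) (segment ℝ (FD ψ W t t₁) (xb : ℂ)) (segment ℝ (ψ zq) ((ψ zq).re : ℂ)) (xb : ℂ)
      ((ψ zq).re : ℂ) (pos W t zq) := by
  have hσ := H.sit.hσ
  have hℓ := H.hℓ
  have hδ := H.flt.hδ
  have hδℓ := H.hδℓ
  have h40 := H.h40
  have hν := H.cst.hν
  have he := H.cst.he
  have hm : 0 < m := he.trans_le hem
  have hrf0 := H.flt.hrf
  have hconf := H.conf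
  set F : ℂ → ℂ := FD ψ W t with hF
  set U : Set ℂ := Ug F σ ε (τ / 2) xc (fun i => dinv F '' K i) with hU
  have hUD : U ⊆ ψ '' loewnerDomain W t := by rw [← H.img]; exact H.sit.sub
  have hcore : ∀ w : ℂ, ‖w‖ < 1 - m → F w ∈ U := fun w hw =>
    ⟨w, core_mem H.sit.obs hem hεm hm (by linarith) hw, rfl⟩
  have hPup : ∀ z ∈ Bf xb rc, 0 < z.im → z ∈ Pm ℓ U := fun z hz hz0 =>
    pm_up hℓ (by linarith) hℓrc hup hz hz0
  have hbb : ((xb : ℝ) : ℂ) ∈ Bf xb rc :=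
    ⟨by simp only [Complex.ofReal_re, sub_self, abs_zero]; linarith,
      by simp only [Complex.ofReal_im, abs_zero]; linarith⟩
  have hbη : ((xb : ℝ) : ℂ) ∈ Bf xb η₂ :=
    ⟨by simp only [Complex.ofReal_re, sub_self, abs_zero]; linarith,
      by simp only [Complex.ofReal_im, abs_zero]; linarith⟩
  -- the point `F t₁`
  have ht0 : ‖((t₁ : ℝ) : ℂ)‖ < 1 - m := by
    rw [Complex.norm_real, Real.norm_of_nonneg (by linarith)]; exact ht2
  have htU : F t₁ ∈ U := hcore _ ht0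
  have htD : F t₁ ∈ ψ '' loewnerDomain W t := hUD htU
  have htb : F t₁ ∈ Bf xb rc := bf_mono hη5 ht3
  have htp : 0 < (F t₁).im := pm_lo H (bf_mono (by linarith) htb) (sub_Pm hℓ htU)
  have htinv : dinv F (F t₁) = t₁ := hconf.dinv_apply (mem_ball_zero_iff.2 (by linarith))
  -- the point `ψ zq`
  have hFq : F (pos W t zq) = ψ zq := FD_mb H.drv ψ hqd
  have hqU : ψ zq ∈ U := by rw [← hFq]; exact hcore _ hqn
  have hqD : ψ zq ∈ ψ '' loewnerDomain W t := hUD hqU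
  have hqp : 0 < (ψ zq).im := pm_lo H (bf_mono (by linarith) hqb) (sub_Pm hℓ hqU)
  have hqinv : dinv F (ψ zq) = pos W t zq := H.dinv_ψ hqd
  have hqR : (((ψ zq).re : ℝ) : ℂ) ∈ Bf xb rc := ⟨by simpa using hqb.1, by
    simp only [Complex.ofReal_im, abs_zero]; linarith⟩
  have hs0 : 0 < s := by linarith
  have hsn : ‖((-1 + s : ℝ) : ℂ)‖ < 1 - m := by
    rw [Complex.norm_real, Real.norm_of_nonpos (by linarith)]; linarith
  -- the distances on the two segments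
  have hKd : ∀ z ∈ segment ℝ (F t₁) (xb : ℂ), dist (F t₁) z ≤ 2 * η₂ := by
    intro z hz
    have h1 : dist (F t₁) (xb : ℂ) ≤ 2 * η₂ := by
      rw [dist_eq_norm]
      refine (Complex.norm_le_abs_re_add_abs_im _).trans ?_
      rw [Complex.sub_re, Complex.sub_im, Complex.ofReal_re, Complex.ofReal_im, sub_zero]
      linarith [ht3.1, ht3.2]
    rw [dist_comm]
    exact (dist_segment hz (left_mem_segment ℝ _ _)).trans h1
  have hXd : ∀ z ∈ segment ℝ (ψ zq) (((ψ zq).re : ℝ) : ℂ), dist (ψ zq) z ≤ 2 * η₂ := by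
    intro z hz
    have h1 : dist (ψ zq) (((ψ zq).re : ℝ) : ℂ) ≤ 2 * η₂ := by
      rw [dist_eq_norm]
      refine (Complex.norm_le_abs_re_add_abs_im _).trans ?_
      rw [Complex.sub_re, Complex.sub_im, Complex.ofReal_re, Complex.ofReal_im, sub_zero, sub_self,
        abs_zero, zero_add, abs_of_pos hqp]
      exact hqh
    rw [dist_comm]
    exact (dist_segment hz (left_mem_segment ℝ _ _)).trans h1
  refine
    { sit := H.sit
      hem := hem
      hεm := hεm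
      hms := hms
      hδs := hδs
      hδν := hδν
      hss := hss
      hs1 := hs1
      top := sub_Pm hℓ (hcore _ hsn)
      deep := ?_
      cut := hcut
      nc2 := ?_
      far := ?_
      t₁s := by linarith
      t₁m := ht2
      cb := isCompact_seg _ _
      pb := (convex_segment _ _).isPreconnected
      Kb_sub := seg_sub hPup htb htp hbb
      Kb_bx := (convex_Bf xb rc).segment_subset htb hbb
      b_mem := right_mem_segment ℝ _ _
      Kb_mem := left_mem_segment ℝ _ _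
      cx := isCompact_seg _ _
      px := (convex_segment _ _).isPreconnected
      Xb_sub := seg_sub hPup hqb hqp hqR
      Xb_bx := (convex_Bf xb rc).segment_subset hqb hqR
      s_mem := right_mem_segment ℝ _ _
      q_mem := by rw [hFq]; exact left_mem_segment ℝ _ _
      qm := hqn
      qi := by linarith
      KX := ?_
      Kpos := ?_
      Xpos := ?_ }
  · -- deep
    intro y hy
    by_contra hcon
    push Not at hcon
    have h1 : y ∈ ball (F ((-1 + s : ℝ) : ℂ)) (2 * r₀ + 16 * ℓ) := by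
      rw [mem_ball, dist_comm]; exact hcon
    obtain ⟨w, hw, rfl⟩ := hdeep h1
    exact (disjoint_frontier_iff_isOpen.2 Out.isOpen_Pm).le_bot
      ⟨hy, sub_Pm hℓ (hcore w (mem_ball_zero_iff.1 hw))⟩
  · -- nc2
    intro u hu z hz hd h1 h2
    rw [H.img] at hz ⊢
    refine jd_mono (H.nc2 u hu z hz hd fun hn => ?_) (by linarith)
    exact re_of_safe hσ hν h10 hs1 hx3 (mem_ball_zero_iff.1 (hconf.dinv_mem hz)) hn h1 h2
  · -- far
    intro x hx
    by_contra hcon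
    push Not at hcon
    have h1 : F ((-1 + s : ℝ) : ℂ) ∈ Bf xb rf :=
      bf_mono (show rc + rf / 2 ≤ rf by linarith) (bf_near hx (hcon.trans (by linarith)))
    obtain ⟨v, hv, hve⟩ := hUD (hcore _ hsn)
    rw [← hve] at h1
    have h2 := H.flt.far v (Vale.Agent.P164.im_pos_of_dom H.drv.nn hv) h1
    have h3 := re_of_far H.drv H.flt.hX1 H.h4 H.h16 le_rfl hX1
      (Vale.Agent.P164.im_pos_of_dom H.drv.nn hv) h2
    rw [← H.dinv_ψ hv, hve, ← hF, hconf.dinv_apply (mem_ball_zero_iff.2 (by linarith)),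
      Complex.ofReal_re] at h3
    have h4 : 0 ≤ (X1 / 2 - 1) / (X1 / 2 + 1) := div_nonneg (by linarith) (by linarith)
    linarith
  · -- KX
    rw [disjoint_left]
    intro z hz1 hz2
    have h1 := ((convex_Bf xb η₂).segment_subset ht3 hbη hz1).1
    have h2 := seg_re hz2
    simp only [Complex.ofReal_re, min_self, max_self] at h2
    have h3 : z.re = (ψ zq).re := le_antisymm h2.2 h2.1
    rw [h3] at h1
    linarith
  · -- Kpos
    intro z hz hzD
    rw [H.img] at hzD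
    have h1 := pos_near H hsm htD hzD (bf_mono (by linarith) htb) (by linarith) (hKd z hz)
      (by linarith) (by linarith)
    rw [← hF, htinv] at h1
    rintro (h2 | h2)
    · have h3 : ‖((t₁ : ℝ) : ℂ) + 1‖ ≤ dist (t₁ : ℂ) (dinv F z) + ‖dinv F z + 1‖ := by
        have : ((t₁ : ℝ) : ℂ) + 1 = ((t₁ : ℂ) - dinv F z) + (dinv F z + 1) := by ring
        rw [this, dist_eq_norm]
        exact norm_add_le _ _
      have h4 : ‖((t₁ : ℝ) : ℂ) + 1‖ = t₁ + 1 := by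
        have : ((t₁ : ℝ) : ℂ) + 1 = ((t₁ + 1 : ℝ) : ℂ) := by push_cast; ring
        rw [this, Complex.norm_real, Real.norm_of_nonneg (by linarith)]
      linarith
    · have h3 : |(dinv F z).im| ≤ dist (t₁ : ℂ) (dinv F z) := by
        have := Complex.abs_im_le_norm ((t₁ : ℂ) - dinv F z)
        rwa [Complex.sub_im, Complex.ofReal_im, zero_sub, abs_neg, ← dist_eq_norm] at this
      have h4 : -|(dinv F z).im| ≤ σ * (dinv F z).im := by
        have := neg_abs_le (σ * (dinv F z).im)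
        rwa [abs_mul, hσ, one_mul] at this
      linarith
  · -- Xpos
    intro z hz hzD
    rw [H.img] at hzD
    have h1 := pos_near H hsm hqD hzD (bf_mono (by linarith) hqb) (by linarith) (hXd z hz)
      (by linarith) (by linarith)
    rw [← hF, hqinv] at h1
    have h2 := H.sit.im_dist (w := dinv F z) (w' := pos W t zq)
    rw [dist_comm] at h2
    linarith

end

end Vale.Agent.P167.H640.MK
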