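import Vale.Agent.P167.H704.Shp.Cx
import Vale.Agent.P167.H450.SideP

/-!
# P167, general `q`, [SHP]: the side of the reference point of the mark

`v1_fst`, `v1_snd`: the origin of the frame. `side_S`: the statement `S_side` (from 450's `side_row` and
653's `hst_st`).
-/

set_option autoImplicit false

namespace Vale.Agent.P167.H640.MK

open Set Metric Filter Topology
open Vale.Agent.P153.R2.L1 (HH)
open Vale.Agent.P164 (loewnerDomain)
open Vale.Agent.P167.H192 (ro)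
open Vale.Agent.P167.H411 (exn Set6)
open Vale.Agent.P167.H446.G
open Vale.Agent.P167.H704.Shp

theorem v1_snd {n : ℕ} (p : ZMod n → ℤ × ℤ) (k : ℕ) (L s δ : ℝ) :
    (v1 p k L s δ).2 = (ro (p k)).2 := by
  simp [v1, vd]

/-- The target in the frame `v1`. -/
theorem v1_fst {n : ℕ} (p : ZMod n → ℤ × ℤ) (k : ℕ) (L s δ : ℝ) :
    H446.G.dl δ * (((ro (p k)).1 - (v1 p k L s δ).1 : ℤ) : ℝ) = lb s δ / 2 := by
  obtain ⟨a, ha⟩ := Nn_dvd s δ
  have e : (ro (p k)).1 - (v1 p k L s δ).1 = 10 * (a : ℤ) := by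
    simp only [v1, vd, Prod.fst_sub]
    push_cast
    rw [ha]
    push_cast
    have h3 : 4 * (a : ℤ) / 2 = 2 * a := by omega
    rw [h3]
    ring
  rw [e, lb, ha]
  push_cast
  ring

theorem sg_not (c : Bool) : H653.St.sg (!c) = -H653.St.sg c := by
  cases c <;> simp [H653.St.sg]

/-- **[SHP], the side of the point `x₂`.** -/
theorem side_S : S_side := by
  intro Φ ψ δ N k p S ψn H hK T R hT hR
  obtain ⟨r, hr, hst⟩ := hK
  obtain ⟨ρ, hρ, hrow⟩ := H450.Out.side_row H hr hst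
  refine ⟨ρ, hρ, ?_⟩
  intro C K hCT hCR hOk hrf
  refine ⟨1, one_pos, fun s hs _ => ?_⟩
  have hδ0 : ∀ᶠ n in atTop, H446.G.dl (δ n) < K.rd / 2 :=
    (H446.G.tendsto_dl H.appr.2.1).eventually (gt_mem_nhds (half_pos hOk.rd0))
  filter_upwards [hrow, H653.St.hst_st H (T := C.T) (R := C.R) (ν := K.ν) hOk.T0 hOk.R0.le
    hOk.cst.hν, hδ0] with n hn hS hd A j hB c O hM
  have hrc := hOk.rcf
  have hrc0 := hOk.rc0
  obtain ⟨-, -, s3, -⟩ := hS A j hB (v1 (p n) (k n) C.Ld s (δ n))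
  have hsat := hM.sat
  have e := v1_fst (p n) (k n) C.Ld s (δ n)
  have key := hn (v1 (p n) (k n) C.Ld s (δ n)) (v1_snd _ _ _ _ _) (c := c) (A := A) (j := j)
    (T := C.T + 1) (R := C.R + 1) (X1 := K.X1) (X3 := K.X3) (rf := K.rf) (rc := K.rc / 2)
    (W := (exn δ N k p S ψn n).W A) (t := (exn δ N k p S ψn n).c A j) (σ := H653.St.sg c)
    (cg := K.cg) (r₀ := 2 * K.r) (ℓ := lb s (δ n)) (ε := K.ε) (e := K.e) (ν := K.ν) (xc := K.xc)
    (ε' := K.τ / 2) (x₂ := O.x₂) (Gt := O.Gt) (x₁ := O.x₁)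
    (κ := fun i => Vale.Agent.P153.R2.R1.dinv (F1 C δ N k p S ψn s n A j) ''
      K1 C K δ N k p S s n A j c O.Th i) (s := O.sm) (s' := K.a₀ / 2)
    (δ' := K.a₀ / 8) (m := K.m) (h₁ := K.h₁) (t₁ := K.t₁) (Kb := O.Kb) (Xb := O.Xb)
    (b := ((lb s (δ n) / 2 : ℝ) : ℂ)) (q := O.q)
  rw [e] at key
  have h2 : K.rc / 2 / 2 = K.rc / 4 := by ring
  rw [h2] at key
  refine key rfl hsat.diff hsat.inj hsat.drv hsat.flt hsat.h4 hsat.h16 hM.hmk hM.x₂_eq hM.Xb_eq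
    hM.fl (by linarith) hsat.h40 hsat.hδℓ hsat.hrf ?_ ?_ ?_
  · intro w hw hwS
    obtain ⟨x, hx, hxd⟩ := s3 (!c) w hw hwS
    refine ⟨x, ?_, hxd⟩
    rwa [sg_not] at hx
  · have h1 := hM.x₂_mem.1
    rw [Complex.ofReal_re] at h1
    linarith
  · have h1 := hM.x₂_far
    linarith

end Vale.Agent.P167.H640.MK
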